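import Vale.Agent.P234.H936.Main

/-! Weak MTW implies convexity of all tangent injectivity domains, and is equivalent to the global
regularity of the cost `d ^ 2 / 2`, in six forms. -/

open Bundle Manifold
open scoped ContDiff Manifold Topology

namespace Vale.Agent.Results.P234.RegularCost

open Vale.Agent.P234

/-- On a compact connected Riemannian manifold the exponential map exists and is unique; weak MTW
implies convexity of the injectivity domains; and weak MTW, Loeper's maximum principle, the
description of subdifferentials of `c`-convex functions, connectedness of the `c`-subdifferentials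
(of all `c`-convex functions, or of maxima of two mountains only), convexity of the sections of
`c`-convex functions, and globality of local supports are equivalent. -/
theorem result {E : Type*} [NormedAddCommGroup E] [NormedSpace ℝ E] [FiniteDimensional ℝ E]
    {M : Type*} [MetricSpace M] [ChartedSpace E M] [IsManifold 𝓘(ℝ, E) ∞ M]
    [RiemannianBundle (fun x : M => TangentSpace 𝓘(ℝ, E) x)]
    [IsContMDiffRiemannianBundle 𝓘(ℝ, E) ∞ E (fun x : M => TangentSpace 𝓘(ℝ, E) x)]
    [IsRiemannianManifold 𝓘(ℝ, E) M] [CompactSpace M] [ConnectedSpace M] :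
    ∃ e : ∀ x : M, TangentSpace 𝓘(ℝ, E) x → M, IsExp e ∧
      (∀ e' : ∀ x : M, TangentSpace 𝓘(ℝ, E) x → M, IsExp e' → e' = e) ∧
      (WeakMTW e → ∀ x : M, Convex ℝ (injDomain e x)) ∧
      List.TFAE [
        WeakMTW e,
        LoeperMax e,
        ∀ ψ : M → ℝ, CConvex ψ → ∀ x : M,
          subgrad e ψ x = {v | dist x (e x v) = ‖v‖ ∧ e x v ∈ cSubdiff ψ x},
        ∀ ψ : M → ℝ, CConvex ψ → ∀ x : M, IsConnected (cSubdiff ψ x),
        ∀ (a b : ℝ) (y z x : M),
          IsConnected (cSubdiff (fun x' => max (a - cost x' y) (b - cost x' z)) x),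
        ∀ ψ : M → ℝ, CConvex ψ → ∀ (x : M) (m : ℝ),
          Convex ℝ {v : TangentSpace 𝓘(ℝ, E) x | dist x (e x v) = ‖v‖ ∧
            ψ (e x v) + cost x (e x v) ≤ m},
        ∀ ψ : M → ℝ, CConvex ψ → ∀ x y : M,
          (∀ᶠ x' in 𝓝 x, ψ x + cost x y - cost x' y ≤ ψ x') → y ∈ cSubdiff ψ x] := by
  obtain ⟨e, he, huniq, hconv⟩ := main_unconditional (E := E) (M := M)
  exact ⟨e, he, huniq, hconv, Reg.tfae (facts_of_isExp he)⟩

end Vale.Agent.Results.P234.RegularCost
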