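import Vale.Agent.P234.H133.Main

/-! Weak MTW implies convexity of all tangent injectivity domains, and is equivalent to regularity
of the quadratic cost of the metric space, in terms of maximal cyclically monotone sets. Regularity
passes to Gromov-Hausdorff limits and to metric quotients and implies right-angle comparison. -/

open Bundle Manifold Metric
open scoped ContDiff Manifold

namespace Vale.Agent.Results.P234.SyntheticMTW

open Vale.Agent.P234

universe u v w t

/-- (1), (2): on a compact connected Riemannian manifold `M` the exponential map exists and is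
unique, weak MTW implies that all tangent injectivity domains are convex, and weak MTW is
equivalent to the regularity of the metric space `M`. (3) A compact metric space which is a
Gromov-Hausdorff limit of regular compact metric spaces is regular. (4) The image of a regular
metric space under a submetry is regular. (5) Right-angle comparison in regular metric spaces. -/
theorem result :
    (∀ {E : Type u} [NormedAddCommGroup E] [NormedSpace ℝ E] [FiniteDimensional ℝ E]
      {M : Type v} [MetricSpace M] [ChartedSpace E M] [IsManifold 𝓘(ℝ, E) ∞ M]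
      [RiemannianBundle (fun x : M => TangentSpace 𝓘(ℝ, E) x)]
      [IsContMDiffRiemannianBundle 𝓘(ℝ, E) ∞ E (fun x : M => TangentSpace 𝓘(ℝ, E) x)]
      [IsRiemannianManifold 𝓘(ℝ, E) M] [CompactSpace M] [ConnectedSpace M],
      ∃ e : ∀ x : M, TangentSpace 𝓘(ℝ, E) x → M, IsExp e ∧
        (∀ e' : ∀ x : M, TangentSpace 𝓘(ℝ, E) x → M, IsExp e' → e' = e) ∧
        (WeakMTW e → ∀ x : M, Convex ℝ (injDomain e x)) ∧
        (WeakMTW e ↔ Regular M)) ∧
    (∀ {X : Type w} [MetricSpace X] [CompactSpace X] [Nonempty X],
      (∀ ε : ℝ, 0 < ε →
        ∃ (Y : Type t) (_ : MetricSpace Y) (_ : CompactSpace Y) (_ : Nonempty Y),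
          Regular Y ∧ GromovHausdorff.ghDist X Y < ε) → Regular X) ∧
    (∀ {X : Type w} [MetricSpace X] [Nonempty X] {Y : Type t} [MetricSpace Y] (p : X → Y),
      (∀ (a : X) (r : ℝ), p '' closedBall a r = closedBall (p a) r) → Regular X → Regular Y) ∧
    (∀ {X : Type w} [MetricSpace X], Regular X →
      ∀ p x y z : X, dist y x + dist x z = dist y z →
        min (dist p y ^ 2 - dist x y ^ 2) (dist p z ^ 2 - dist x z ^ 2) ≤ dist p x ^ 2) := by
  refine ⟨?_, ?_, ?_, ?_⟩
  · intro E _ _ _ M _ _ _ _ _ _ _ _
    obtain ⟨e, he, huniq, hconv⟩ := main_unconditional (E := E) (M := M)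
    exact ⟨e, he, huniq, hconv, H133.weakMTW_iff_regular he⟩
  · intro X _ _ _ h
    exact H133.regular_of_limit h
  · intro X _ _ Y _ p hp hX
    exact H133.regular_of_submetry hX p hp
  · intro X _ hX p x y z h
    exact (H133.star_of_regular hX).comparison h

end Vale.Agent.Results.P234.SyntheticMTW
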